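import Vale.Agent.P329.Subwords

/-! The image of a word in a group of nilpotency class three from subword counts (P329). -/

namespace Vale.Agent.P329.ClassThree

open LowHeight Subwords
open scoped commutatorElement

variable {α G : Type*} [Group G]

/-- The group has nilpotency class at most three. -/
class IsClass3 (G : Type*) [Group G] : Prop where
  bot : (⊤ : Subgroup G).lowerCentralSeries 3 = ⊥

/-- The commutator `a⁻¹ b⁻¹ a b`. -/
def br (a b : G) : G := a⁻¹ * b⁻¹ * a * b

theorem br_mul_left (a b x : G) : br (a * b) x = br a x * br (br a x) b * br b x := by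
  simp [br, mul_assoc]

theorem br_mul_right (d a b : G) : br d (a * b) = br d b * br d a * br (br d a) b := by
  simp [br, mul_assoc]

theorem mul_br (a b : G) : a * b = b * a * br a b := by simp [br, mul_assoc]

/-- The derived subgroup. -/
abbrev D (G : Type*) [Group G] : Subgroup G := (⊤ : Subgroup G).lowerCentralSeries 1

theorem br_mem (a b : G) : br a b ∈ D G := by
  have : br a b = ⁅a⁻¹, b⁻¹⁆ := by simp [br, commutatorElement_def]
  rw [this, D, Subgroup.lowerCentralSeries_succ, Subgroup.lowerCentralSeries_zero]
  exact Subgroup.commutator_mem_commutator trivial trivial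

theorem br_mem_two {d : G} (hd : d ∈ D G) (x : G) :
    br d x ∈ (⊤ : Subgroup G).lowerCentralSeries 2 := by
  have : br d x = ⁅d⁻¹, x⁻¹⁆ := by simp [br, commutatorElement_def]
  rw [this, Subgroup.lowerCentralSeries_succ]
  exact Subgroup.commutator_mem_commutator (inv_mem hd) trivial

variable [IsClass3 G]

theorem central {z : G} (hz : z ∈ (⊤ : Subgroup G).lowerCentralSeries 2) (g : G) :
    z * g = g * z := by
  rw [← commutatorElement_eq_one_iff_mul_comm, ← Subgroup.mem_bot,
    ← IsClass3.bot (G := G), Subgroup.lowerCentralSeries_succ]
  exact Subgroup.commutator_mem_commutator hz trivial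

theorem comm_D {u v : G} (hu : u ∈ D G) (hv : v ∈ D G) : u * v = v * u := by
  have h3 : ⁅⁅D G, ⊤⁆, (⊤ : Subgroup G)⁆ = ⊥ := IsClass3.bot
  have h := Subgroup.commutator_commutator_eq_bot_of_rotate (H₁ := (⊤ : Subgroup G))
    (H₂ := ⊤) (H₃ := D G) (by rw [Subgroup.commutator_comm (⊤ : Subgroup G) (D G)]; exact h3) h3
  rw [← commutatorElement_eq_one_iff_mul_comm, ← Subgroup.mem_bot, ← h]
  exact Subgroup.commutator_mem_commutator
    (show u ∈ ⁅(⊤ : Subgroup G), (⊤ : Subgroup G)⁆ from hu) hv

instance : CommGroup (D G) :=
  { (inferInstance : Group (D G)) with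
    mul_comm := fun a b => Subtype.ext (comm_D a.2 b.2) }

/-- The derived subgroup written additively. -/
abbrev A (G : Type*) [Group G] : Type _ := Additive (D G)

/-- An element of the derived subgroup as an element of the group. -/
def val (u : A G) : G := ((Additive.toMul u : D G) : G)

theorem val_injective : Function.Injective (val (G := G)) := fun _ _ h =>
  Additive.toMul.injective (Subtype.ext h)

@[simp] theorem val_add (u v : A G) : val (u + v) = val u * val v := rfl

@[simp] theorem val_zero : val (0 : A G) = 1 := rfl

theorem val_mem (u : A G) : val u ∈ D G := (Additive.toMul u : D G).2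

/-- The commutator as an element of the derived subgroup. -/
def cm (a b : G) : A G := Additive.ofMul ⟨br a b, br_mem a b⟩

@[simp] theorem val_cm (a b : G) : val (cm a b) = br a b := rfl

theorem br_br_one {d : G} (hd : d ∈ D G) (x y : G) : br (br d x) y = 1 := by
  have := central (br_mem_two hd x) y
  generalize br d x = z at this ⊢
  simp [br, mul_assoc, this]

theorem br_mul_D {u v : G} (hu : u ∈ D G) (x : G) : br (u * v) x = br u x * br v x := by
  rw [br_mul_left, br_br_one hu, mul_one]

/-- Commutation with `x` on the derived subgroup. -/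
def psi (x : G) : A G →+ A G where
  toFun u := cm (val u) x
  map_zero' := val_injective (by simp [br])
  map_add' u v := val_injective (by simp [br_mul_D (val_mem u)])

@[simp] theorem val_psi (x : G) (u : A G) : val (psi x u) = br (val u) x := rfl

theorem psi_psi (x y : G) (u : A G) : psi x (psi y u) = 0 :=
  val_injective (by simp [br_br_one (val_mem u)])

theorem psi_one (u : A G) : psi 1 u = 0 := val_injective (by simp [br])

theorem psi_mul (a b : G) (u : A G) : psi (a * b) u = psi a u + psi b u :=
  val_injective (by
    rw [add_comm]
    simp [br_mul_right, br_br_one (val_mem u)])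

theorem psi_pow (a : G) (k : ℕ) (u : A G) : psi (a ^ k) u = k • psi a u := by
  induction k with
  | zero => simp [psi_one]
  | succ k ih => rw [pow_succ, psi_mul, ih, succ_nsmul]

theorem cm_mul (a b x : G) : cm (a * b) x = cm a x + psi b (cm a x) + cm b x :=
  val_injective (by simp [br_mul_left])

theorem cm_one (x : G) : cm 1 x = (0 : A G) := val_injective (by simp [br])

theorem cm_pow (y x : G) (k : ℕ) :
    cm (y ^ k) x = k • cm y x + k.choose 2 • psi y (cm y x) := by
  induction k with
  | zero => simp [cm_one]
  | succ k ih =>
    rw [pow_succ, cm_mul, ih, map_add, map_nsmul, map_nsmul, psi_psi, nsmul_zero, add_zero,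
      choose_succ_two]
    simp only [add_nsmul, one_nsmul]
    abel

variable (φ : α → G)

/-- Ordered product of powers of the letters in a list. -/
def T (e : α → ℕ) (L : List α) : G := (L.map fun y => φ y ^ e y).prod

theorem psi_T (e : α → ℕ) (L : List α) (u : A G) :
    psi (T φ e L) u = (L.map fun z => e z • psi (φ z) u).sum := by
  induction L with
  | nil => simp [T, psi_one]
  | cons y L ih =>
    rw [T, List.map_cons, List.prod_cons, psi_mul, psi_pow, List.map_cons, List.sum_cons]
    exact congrArg _ ih

theorem psi_cm_T (e : α → ℕ) (L : List α) (a x : G) :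
    psi a (cm (T φ e L) x) = (L.map fun y => e y • psi a (cm (φ y) x)).sum := by
  induction L with
  | nil => simp [T, cm_one]
  | cons y L ih =>
    rw [T, List.map_cons, List.prod_cons, cm_mul, map_add, map_add, psi_psi, add_zero, cm_pow,
      map_add, map_nsmul, map_nsmul, psi_psi, nsmul_zero, add_zero, List.map_cons, List.sum_cons]
    exact congrArg _ ih

theorem cm_T_cons (e : α → ℕ) (y : α) (L : List α) (x : G) :
    cm (T φ e (y :: L)) x = e y • cm (φ y) x + (e y).choose 2 • psi (φ y) (cm (φ y) x) +
      (L.map fun z => (e z * e y) • psi (φ z) (cm (φ y) x)).sum + cm (T φ e L) x := by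
  have hT : T φ e (y :: L) = φ y ^ e y * T φ e L := by simp [T]
  rw [hT, cm_mul, cm_pow, psi_T]
  congr 2
  refine congrArg List.sum (List.map_congr_left fun z _ => ?_)
  rw [map_add, map_nsmul, map_nsmul, psi_psi, nsmul_zero, add_zero, mul_nsmul']

variable [Finite α] [Finite G] [DecidableEq α]

theorem meas_smul {f : List α → ℕ}
    (h : ∀ (m : ℕ) [NeZero m], Meas fun w => (f w : ZMod m)) (c : A G) :
    Meas fun w => f w • c := by
  haveI : NeZero (Nat.card (A G)) := ⟨Nat.card_pos.ne'⟩
  convert (h (Nat.card (A G))).comp fun r => r.val • c using 2 with w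
  rw [ZMod.val_natCast]
  conv_lhs => rw [← Nat.mod_add_div (f w) (Nat.card (A G))]
  rw [add_nsmul, mul_nsmul, card_nsmul_eq_zero', nsmul_zero, add_zero]

omit [Finite α] [Finite G] in
theorem psum_smul (a : α) (f : List α → ℕ) (c : A G) (w : List α) :
    psum (fun p t => if t = a then f p • c else 0) w = atS {a} f w • c := by
  induction w using List.reverseRecOn with
  | nil => simp
  | append_singleton w t ih =>
    rw [psum_snoc, ih, atS_snoc, add_nsmul]
    simp only [Finset.mem_singleton]
    split_ifs <;> simp

theorem meas_list {ι : Type*} (L : List ι) {f : ι → List α → A G}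
    (h : ∀ i ∈ L, Meas (f i)) : Meas fun w => (L.map fun i => f i w).sum := by
  induction L with
  | nil => simpa using meas_const (α := α) (0 : A G)
  | cons i L ih =>
    simp only [List.map_cons, List.sum_cons]
    exact (h i (by simp)).comp₂ (ih fun j hj => h j (by simp [hj])) (· + ·)

/-- The letter counts of a word. -/
def e (w : List α) (y : α) : ℕ := n1 y w

theorem meas_cm (a : α) (x : G) : ∀ L : List α, a ∉ L →
    Meas (psum fun p t => if t = a then cm (T φ (e p) L) x else 0) := by
  intro L
  induction L with
  | nil =>
    intro _
    convert meas_const (α := α) (0 : A G) using 2 with w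
    simp [T, cm_one, psum_zero]
  | cons y L ih =>
    intro ha
    simp only [List.mem_cons, not_or] at ha
    have hy : y ≠ a := Ne.symm ha.1
    have h1 := meas_smul (f := n2 y a) (fun m _ => meas_n2 m hy) (cm (φ y) x)
    have h2 := meas_smul (f := bb y a) (fun m _ => meas_bb m hy) (psi (φ y) (cm (φ y) x))
    have h3 := meas_list L (f := fun z w => q2 z y a w • psi (φ z) (cm (φ y) x))
      fun z hz => meas_smul (fun m _ => meas_q2 m (ne_of_mem_of_not_mem hz ha.2) hy) _
    convert ((h1.comp₂ h2 (· + ·)).comp₂ h3 (· + ·)).comp₂ (ih ha.2) (· + ·) using 2 with w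
    have hrw : (fun p t => if t = a then cm (T φ (e p) (y :: L)) x else 0) =
        fun p t => (if t = a then n1 y p • cm (φ y) x else 0) +
          (if t = a then (n1 y p).choose 2 • psi (φ y) (cm (φ y) x) else 0) +
          (L.map fun z => if t = a then (n1 z p * n1 y p) • psi (φ z) (cm (φ y) x) else 0).sum +
          (if t = a then cm (T φ (e p) L) x else 0) := by
      funext p t
      by_cases ht : t = a
      · simp only [ht, if_true]
        exact cm_T_cons φ (e p) y L x
      · simp [ht]
    rw [hrw]
    simp only [psum_add, psum_list, psum_smul]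
    rfl

variable (after : α → List α)

/-- The commutator correction caused by the last letter. -/
def g (p : List α) (t : α) : A G := cm (T φ (e p) (after t)) (φ t)

/-- The derived part modulo the last term of the series. -/
def dd : List α → A G := psum (g φ after)

/-- The derived part of the image of a word. -/
def dA : List α → A G := psum fun p t => g φ after p t + psi (φ t) (dd φ after p)

omit [Finite α] [Finite G] in
theorem psi_dA (x : G) (w : List α) : psi x (dA φ after w) = psi x (dd φ after w) := by
  rw [dA, psum_add, map_add, psum_map (psi x) fun p t => psi (φ t) (dd φ after p), dd]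
  simp only [psi_psi, psum_zero, add_zero]

omit [Finite G] in
theorem psi_dd [Fintype α] (x : G) (w : List α) :
    psi x (dd φ after w) = ∑ b : α, ((after b).map fun y =>
      n2 y b w • psi x (cm (φ y) (φ b))).sum := by
  rw [dd, psum_map]
  have hrw : (fun p t => psi x (g φ after p t)) = fun p t => ∑ b : α, ((after b).map fun y =>
      if t = b then n1 y p • psi x (cm (φ y) (φ b)) else 0).sum := by
    funext p t
    rw [Finset.sum_eq_single t]
    · simp only [if_true]
      exact psi_cm_T φ (e p) (after t) x (φ t)
    · intro b _ hb
      simp [Ne.symm hb]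
    · simp
  rw [hrw]
  simp only [psum_finset, psum_list, psum_smul]
  rfl

theorem meas_dA (hne : ∀ t, t ∉ after t) : Meas (dA φ after) := by
  classical
  letI := Fintype.ofFinite α
  have hterm : ∀ a : α, Meas (psum fun p t => if t = a then psi (φ a) (dd φ after p) else 0) := by
    intro a
    convert meas_sum (Finset.univ : Finset α)
      (f := fun b w => ((after b).map fun y => n3 y b a w • psi (φ a) (cm (φ y) (φ b))).sum)
      (fun b _ => meas_list _ fun y hy =>
        meas_smul (fun m _ => meas_n3 m (ne_of_mem_of_not_mem hy (hne b)) a) _) using 2 with w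
    have hrw : (fun p t => if t = a then psi (φ a) (dd φ after p) else 0) =
        fun p t => ∑ b : α, ((after b).map fun y =>
          if t = a then n2 y b p • psi (φ a) (cm (φ y) (φ b)) else 0).sum := by
      funext p t
      by_cases ht : t = a
      · simp only [ht, if_true]; exact psi_dd φ after _ p
      · simp [ht]
    rw [hrw]
    simp only [psum_finset, psum_list, psum_smul]
    rfl
  have hsum := meas_sum (Finset.univ : Finset α) fun a _ =>
    (meas_cm φ a (φ a) (after a) (hne a)).comp₂ (hterm a) (· + ·)
  convert hsum using 2 with w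
  rw [dA, psum_add]
  have hrw : ∀ F : List α → α → A G,
      psum F w = ∑ a : α, psum (fun p t => if t = a then F p a else 0) w := by
    intro F
    rw [← psum_finset]
    congr 1
    funext p t
    simp
  rw [hrw (g φ after), hrw fun p t => psi (φ t) (dd φ after p), ← Finset.sum_add_distrib]
  rfl

omit [Finite α] [Finite G] in
theorem image_eq (L : List α) (hL : L.Nodup) (hspec : ∀ t, ∃ L1, L = L1 ++ t :: after t)
    (w : List α) : (w.map φ).prod = T φ (e w) L * val (dA φ after w) := by
  induction w using List.reverseRecOn with
  | nil =>
    have : T φ (e ([] : List α)) L = 1 := by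
      simp [T, e, n1, nA]
    simp [this, dA]
  | append_singleton w t ih =>
    rw [List.map_append, List.prod_append, ih, List.map_singleton, List.prod_singleton]
    obtain ⟨L1, hL'⟩ := hspec t
    subst hL'
    rw [List.nodup_append] at hL
    have ht1 : t ∉ L1 := fun h => hL.2.2 t h t List.mem_cons_self rfl
    have ht2 : t ∉ after t := (List.nodup_cons.1 hL.2.1).1
    have same : ∀ K : List α, t ∉ K → T φ (e (w ++ [t])) K = T φ (e w) K := by
      intro K hK
      refine congrArg List.prod (List.map_congr_left fun y hy => ?_)
      have : t ≠ y := fun h => hK (h ▸ hy)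
      simp [e, n1, nA, this]
    have split : ∀ f : α → ℕ, T φ f (L1 ++ t :: after t) =
        T φ f L1 * φ t ^ f t * T φ f (after t) := by
      intro f; simp [T, mul_assoc]
    have het : e (w ++ [t]) t = e w t + 1 := by simp [e, n1, nA]
    rw [split, split, same _ ht1, same _ ht2, het, pow_succ]
    have key : val (dA φ after (w ++ [t])) =
        br (T φ (e w) (after t)) (φ t) * val (dA φ after w) * br (val (dA φ after w)) (φ t) := by
      have hs : dA φ after (w ++ [t]) =
          g φ after w t + dA φ after w + psi (φ t) (dA φ after w) := by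
        rw [psi_dA, dA, psum_snoc]; abel
      rw [hs]; simp [g]
    rw [key]
    generalize T φ (e w) L1 = P1, φ t ^ e w t = X, T φ (e w) (after t) = P2,
      val (dA φ after w) = d, φ t = x
    simp [br, mul_assoc]

theorem meas_T (L : List α) : Meas fun w => T φ (e w) L := by
  haveI : NeZero (Nat.card G) := ⟨Nat.card_pos.ne'⟩
  induction L with
  | nil => simpa [T] using meas_const (α := α) (1 : G)
  | cons y L ih =>
    convert ((meas_n1 (Nat.card G) y).comp fun r => φ y ^ r.val).comp₂ ih (· * ·) using 2 with w
    simp [T, e, ZMod.val_natCast, pow_mod_natCard]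

omit [DecidableEq α] in
theorem meas_image : Meas fun w : List α => (w.map φ).prod := by
  classical
  letI := Fintype.ofFinite α
  have hL : (Finset.univ : Finset α).toList.Nodup := Finset.nodup_toList _
  have hs : ∀ t : α, ∃ r, ∃ L1, (Finset.univ : Finset α).toList = L1 ++ t :: r := by
    intro t
    obtain ⟨a, b, h⟩ := List.append_of_mem (Finset.mem_toList.2 (Finset.mem_univ t))
    exact ⟨b, a, h⟩
  choose after hafter using hs
  have hne : ∀ t, t ∉ after t := by
    intro t
    obtain ⟨L1, h⟩ := hafter t
    have h' := hL
    rw [h, List.nodup_append] at h'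
    exact (List.nodup_cons.1 h'.2.1).1
  convert (meas_T φ (Finset.univ : Finset α).toList).comp₂ (meas_dA φ after hne)
    (fun P d => P * val d) using 2 with w
  exact image_eq φ after _ hL hafter w

end Vale.Agent.P329.ClassThree
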