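import Vale.Agent.P329.Reduce

/-! Languages of generalised star height zero and at most one, and measurable statistics (P329). -/

namespace Vale.Agent.P329.LowHeight

variable {α : Type*}

/-- Star free. -/
def SF (L : Language α) : Prop := ∃ E : GRE α, E.sh = 0 ∧ E.lang = L

/-- Height at most one. -/
def H1 (L : Language α) : Prop := ∃ E : GRE α, E.sh ≤ 1 ∧ E.lang = L

theorem SF.h1 {L : Language α} (h : SF L) : H1 L := by
  obtain ⟨E, h1, h2⟩ := h
  exact ⟨E, by omega, h2⟩

theorem sf_zero : SF (0 : Language α) := ⟨.zero, rfl, rfl⟩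

theorem sf_one : SF (1 : Language α) := ⟨.one, rfl, rfl⟩

theorem sf_letter (a : α) : SF ({[a]} : Language α) := ⟨.letter a, rfl, rfl⟩

theorem SF.add {L L' : Language α} (h : SF L) (h' : SF L') : SF (L + L') := by
  obtain ⟨E, h1, rfl⟩ := h
  obtain ⟨F, h2, rfl⟩ := h'
  exact ⟨.plus E F, by simp [GRE.sh, h1, h2], rfl⟩

theorem SF.mul {L L' : Language α} (h : SF L) (h' : SF L') : SF (L * L') := by
  obtain ⟨E, h1, rfl⟩ := h
  obtain ⟨F, h2, rfl⟩ := h'
  exact ⟨.cat E F, by simp [GRE.sh, h1, h2], rfl⟩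

theorem SF.compl {L : Language α} (h : SF L) : SF Lᶜ := by
  obtain ⟨E, h1, rfl⟩ := h
  exact ⟨.neg E, by simp [GRE.sh, h1], rfl⟩

theorem SF.star {L : Language α} (h : SF L) : H1 (KStar.kstar L) := by
  obtain ⟨E, h1, rfl⟩ := h
  exact ⟨.star E, by simp [GRE.sh, h1], rfl⟩

theorem H1.add {L L' : Language α} (h : H1 L) (h' : H1 L') : H1 (L + L') := by
  obtain ⟨E, h1, rfl⟩ := h
  obtain ⟨F, h2, rfl⟩ := h'
  exact ⟨.plus E F, max_le h1 h2, rfl⟩

theorem H1.mul {L L' : Language α} (h : H1 L) (h' : H1 L') : H1 (L * L') := by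
  obtain ⟨E, h1, rfl⟩ := h
  obtain ⟨F, h2, rfl⟩ := h'
  exact ⟨.cat E F, max_le h1 h2, rfl⟩

theorem H1.compl {L : Language α} (h : H1 L) : H1 Lᶜ := by
  obtain ⟨E, h1, rfl⟩ := h
  exact ⟨.neg E, h1, rfl⟩

theorem sf_iUnion {ι : Type*} [Finite ι] {L : ι → Language α} (h : ∀ i, SF (L i)) :
    SF (⨆ i, L i) := by
  classical
  have := Fintype.ofFinite ι
  have key : ∀ T : Finset ι, SF (T.sup L) := by
    intro T
    induction T using Finset.induction_on with
    | empty => rw [Finset.sup_empty]; exact sf_zero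
    | insert a T _ ih => rw [Finset.sup_insert]; exact (h a).add ih
  rw [← Finset.sup_univ_eq_iSup]
  exact key _

theorem h1_iUnion {ι : Type*} [Finite ι] {L : ι → Language α} (h : ∀ i, H1 (L i)) :
    H1 (⨆ i, L i) := by
  classical
  have := Fintype.ofFinite ι
  have key : ∀ T : Finset ι, H1 (T.sup L) := by
    intro T
    induction T using Finset.induction_on with
    | empty => rw [Finset.sup_empty]; exact sf_zero.h1
    | insert a T _ ih => rw [Finset.sup_insert]; exact (h a).add ih
  rw [← Finset.sup_univ_eq_iSup]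
  exact key _

theorem h1_iInter {ι : Type*} [Finite ι] {L : ι → Language α} (h : ∀ i, H1 (L i)) :
    H1 (⨅ i, L i) := by
  have := (h1_iUnion (fun i => (h i).compl)).compl
  rwa [← compl_iInf, compl_compl] at this

/-- All words using only letters from `A`. -/
def only (A : Set α) : Language α := {w | ∀ a ∈ w, a ∈ A}

theorem sf_only [Finite α] (A : Set α) : SF (only A) := by
  have hU : SF ((0 : Language α)ᶜ) := sf_zero.compl
  have hB : SF (⨆ a : {a : α // a ∉ A}, ({[a.1]} : Language α)) :=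
    sf_iUnion fun a => sf_letter a.1
  have hall : ∀ w : List α, w ∈ (0 : Language α)ᶜ := fun w h => Language.notMem_zero w h
  convert ((hU.mul hB).mul hU).compl using 1
  ext w
  change (∀ a ∈ w, a ∈ A) ↔ ¬ (w ∈ _ * _ * _)
  constructor
  · intro h hw
    obtain ⟨x, ⟨u, _, b, hb, rfl⟩, v, _, rfl⟩ := Language.mem_mul.1 hw
    obtain ⟨a, ha⟩ := Language.mem_iSup.1 hb
    have hb' : b = [a.1] := ha
    exact a.2 (h a.1 (by simp [hb']))
  · intro h a ha
    by_contra hA
    obtain ⟨u, v, rfl⟩ := List.append_of_mem ha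
    apply h
    refine Language.mem_mul.2 ⟨u ++ [a], Language.mem_mul.2 ⟨u, hall u, [a], ?_, rfl⟩, v, hall v, ?_⟩
    · exact Language.mem_iSup.2 ⟨⟨a, hA⟩, rfl⟩
    · simp

/-- Build height at most one from a membership description. -/
theorem H1.of_mem_iff {L L' : Language α} (h : H1 L') (e : ∀ w, w ∈ L ↔ w ∈ L') : H1 L := by
  have : L = L' := Set.ext e
  rwa [this]

theorem mem_iInf' {ι : Type*} {L : ι → Language α} {w : List α} :
    (w ∈ ⨅ i, L i) ↔ ∀ i, w ∈ L i :=
  Set.mem_iInter (s := L)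

/-- The words whose statistic lies in `S`. -/
def fib {β : Type*} (f : List α → β) (S : Set β) : Language α := {w | f w ∈ S}

theorem mem_fib {β : Type*} {f : List α → β} {S : Set β} {w : List α} :
    w ∈ fib f S ↔ f w ∈ S := Iff.rfl

/-- A statistic all of whose fibres have height at most one. -/
def Meas {β : Type*} (f : List α → β) : Prop := ∀ S : Set β, H1 (fib f S)

theorem Meas.comp {β γ : Type*} {f : List α → β} (h : Meas f) (g : β → γ) :
    Meas fun w => g (f w) := fun S => h (g ⁻¹' S)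

theorem meas_of_point {β : Type*} [Finite β] {f : List α → β}
    (h : ∀ b, H1 (fib f {b})) : Meas f := by
  intro S
  refine (h1_iUnion (fun b : S => h b.1)).of_mem_iff fun w => ?_
  rw [Language.mem_iSup, mem_fib]
  exact ⟨fun hw => ⟨⟨_, hw⟩, rfl⟩, fun ⟨b, hb⟩ => by rw [Set.mem_singleton_iff.1 hb]; exact b.2⟩

theorem meas_pi {ι : Type*} [Finite ι] {β : ι → Type*} [∀ i, Finite (β i)]
    {f : List α → ∀ i, β i} (h : ∀ i, Meas fun w => f w i) : Meas f := by
  apply meas_of_point
  intro b
  refine (h1_iInter (fun i => h i {b i})).of_mem_iff fun w => ?_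
  rw [mem_iInf', mem_fib, Set.mem_singleton_iff, funext_iff]
  exact forall_congr' fun i => Iff.rfl

theorem Meas.prod {β γ : Type*} [Finite β] [Finite γ] {f : List α → β} {g : List α → γ}
    (hf : Meas f) (hg : Meas g) : Meas fun w => (f w, g w) := by
  apply meas_of_point
  rintro ⟨b, c⟩
  refine ((hf {b}).compl.add (hg {c}).compl).compl.of_mem_iff fun w => ?_
  change (f w, g w) = (b, c) ↔ ¬ (¬ f w = b ∨ ¬ g w = c)
  rw [Prod.mk.injEq]
  tauto

theorem meas_const {β : Type*} (b : β) : Meas fun _ : List α => b := by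
  intro S
  by_cases hb : b ∈ S
  · exact sf_zero.compl.h1.of_mem_iff fun w => iff_of_true hb (Language.notMem_zero w)
  · exact sf_zero.h1.of_mem_iff fun w => iff_of_false hb (Language.notMem_zero w)

theorem Meas.comp₂ {β γ δ : Type*} [Finite β] [Finite γ] {f : List α → β} {g : List α → γ}
    (hf : Meas f) (hg : Meas g) (op : β → γ → δ) : Meas fun w => op (f w) (g w) :=
  (hf.prod hg).comp fun p => op p.1 p.2

end Vale.Agent.P329.LowHeight
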