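import Mathlib

/-! Generalized star height at most one: the reduction to stars of star-free languages (P329). -/

namespace Vale.Agent.P329

open List

variable {α : Type*}

/-- Generalized regular expressions. -/
inductive GRE (α : Type*) where
  | zero : GRE α
  | one : GRE α
  | letter : α → GRE α
  | plus : GRE α → GRE α → GRE α
  | cat : GRE α → GRE α → GRE α
  | neg : GRE α → GRE α
  | star : GRE α → GRE α

/-- The language denoted by an expression. -/
def GRE.lang : GRE α → Language α
  | .zero => 0
  | .one => 1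
  | .letter a => {[a]}
  | .plus P Q => P.lang + Q.lang
  | .cat P Q => P.lang * Q.lang
  | .neg P => (P.lang)ᶜ
  | .star P => KStar.kstar P.lang

/-- Generalized star height of an expression. -/
def GRE.sh : GRE α → ℕ
  | .zero => 0
  | .one => 0
  | .letter _ => 0
  | .plus P Q => max P.sh Q.sh
  | .cat P Q => max P.sh Q.sh
  | .neg P => P.sh
  | .star P => P.sh + 1

/-- `u` repeated `n` times. -/
def wpow (u : List α) : ℕ → List α
  | 0 => []
  | n + 1 => u ++ wpow u n

theorem wpow_add (u : List α) (m n : ℕ) : wpow u (m + n) = wpow u m ++ wpow u n := by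
  induction m with
  | zero => simp [wpow]
  | succ m ih => rw [Nat.succ_add, wpow, wpow, ih, List.append_assoc]

theorem length_wpow (u : List α) (n : ℕ) : (wpow u n).length = n * u.length := by
  induction n with
  | zero => simp [wpow]
  | succ n ih => rw [wpow, List.length_append, ih]; ring

/-- Syntactic congruence. -/
def SynEq (L : Language α) (u v : List α) : Prop :=
  ∀ p s : List α, p ++ u ++ s ∈ L ↔ p ++ v ++ s ∈ L

/-- Powers of `u` are stable in every context from exponent `n` on. -/
def StableAt (L : Language α) (u : List α) (n : ℕ) : Prop :=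
  SynEq L (wpow u n) (wpow u (n + 1))

theorem StableAt.mono {L : Language α} {u : List α} {n m : ℕ} (h : StableAt L u n) (hnm : n ≤ m) :
    StableAt L u m := by
  intro p s
  obtain ⟨k, rfl⟩ := Nat.exists_eq_add_of_le hnm
  have := h p (wpow u k ++ s)
  rw [show n + k + 1 = (n + 1) + k by omega, wpow_add, wpow_add]
  simpa [List.append_assoc] using this

theorem stableAt_zero (u : List α) : StableAt (0 : Language α) u 0 := fun p s =>
  iff_of_false (Language.notMem_zero _) (Language.notMem_zero _)

theorem stableAt_short {L : Language α} (u : List α) (hL : ∀ w ∈ L, w.length ≤ 1) :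
    StableAt L u 2 := by
  intro p s
  rcases u with _ | ⟨a, u⟩
  · simp [wpow]
  · refine iff_of_false (fun h => ?_) (fun h => ?_) <;>
    · have := hL _ h
      simp [wpow] at this
      omega

theorem stableAt_cat {L L' : Language α} {u : List α} {n m : ℕ} (h : StableAt L u n)
    (h' : StableAt L' u m) : StableAt (L * L') u (n + m + 2) := by
  have split : ∀ (k : ℕ) (p s x y : List α), x ++ y = p ++ wpow u k ++ s →
      ∀ i j : ℕ, i + j + 1 ≤ k →
        (∃ x1, x = p ++ wpow u i ++ x1) ∨ ∃ y1, y = y1 ++ (wpow u j ++ s) := by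
    intro k p s x y hxy i j hij
    obtain ⟨r, rfl⟩ := Nat.exists_eq_add_of_le hij
    have e : x ++ y = (p ++ wpow u i) ++ ((u ++ wpow u r) ++ (wpow u j ++ s)) := by
      rw [hxy, show i + j + 1 + r = i + ((r + 1) + j) by omega, wpow_add, wpow_add]
      simp [wpow, List.append_assoc]
    rcases List.append_eq_append_iff.1 e with ⟨z, h1, h2⟩ | ⟨z, h1, _⟩
    · exact Or.inr ⟨z ++ (u ++ wpow u r), by rw [h2]; simp [List.append_assoc]⟩
    · exact Or.inl ⟨z, h1⟩
  have cancelR : ∀ (x y1 z w : List α), x ++ (y1 ++ z) = w ++ z → x ++ y1 = w := fun x y1 z w e =>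
    List.append_cancel_right (by rw [List.append_assoc]; exact e)
  intro p s
  rw [Language.mem_mul, Language.mem_mul]
  constructor
  · rintro ⟨x, hx, y, hy, hxy⟩
    rcases split _ p s x y hxy n m (by omega) with ⟨x1, rfl⟩ | ⟨y1, rfl⟩
    · refine ⟨_, (h p x1).1 hx, y, hy, ?_⟩
      simp only [List.append_assoc] at hxy ⊢
      have h2 := List.append_cancel_left hxy
      rw [show n + m + 2 = n + (m + 2) by omega, wpow_add, List.append_assoc] at h2
      rw [List.append_cancel_left h2, show n + m + 2 + 1 = (n + 1) + (m + 2) by omega,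
        wpow_add (u := u) (m := n + 1)]
      simp [List.append_assoc]
    · refine ⟨x, hx, y1 ++ (wpow u (m + 1) ++ s), ?_, ?_⟩
      · simpa [List.append_assoc] using (h' y1 s).1 (by simpa [List.append_assoc] using hy)
      · rw [show n + m + 2 = (n + 2) + m by omega, wpow_add] at hxy
        have h2 := cancelR x y1 (wpow u m ++ s) (p ++ wpow u (n + 2))
          (by simpa [List.append_assoc] using hxy)
        rw [← List.append_assoc, h2, show n + m + 2 + 1 = (n + 2) + (m + 1) by omega,
          wpow_add (u := u) (m := n + 2)]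
        simp [List.append_assoc]
  · rintro ⟨x, hx, y, hy, hxy⟩
    rcases split _ p s x y hxy (n + 1) (m + 1) (by omega) with ⟨x1, rfl⟩ | ⟨y1, rfl⟩
    · refine ⟨_, (h p x1).2 hx, y, hy, ?_⟩
      simp only [List.append_assoc] at hxy ⊢
      have h2 := List.append_cancel_left hxy
      rw [show n + m + 2 + 1 = (n + 1) + (m + 2) by omega,
        wpow_add (u := u) (m := n + 1) (n := m + 2), List.append_assoc] at h2
      rw [List.append_cancel_left h2, show n + m + 2 = n + (m + 2) by omega,
        wpow_add (u := u) (m := n)]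
      simp [List.append_assoc]
    · refine ⟨x, hx, y1 ++ (wpow u m ++ s), ?_, ?_⟩
      · simpa [List.append_assoc] using (h' y1 s).2 (by simpa [List.append_assoc] using hy)
      · rw [show n + m + 2 + 1 = (n + 2) + (m + 1) by omega,
          wpow_add (u := u) (m := n + 2) (n := m + 1)] at hxy
        have h2 := cancelR x y1 (wpow u (m + 1) ++ s) (p ++ wpow u (n + 2))
          (by simpa [List.append_assoc] using hxy)
        rw [← List.append_assoc, h2, show n + m + 2 = (n + 2) + m by omega,
          wpow_add (u := u) (m := n + 2)]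
        simp [List.append_assoc]

theorem SynEq.kstar_stable {L : Language α} {u : List α} (h : SynEq L u (u ++ u)) :
    StableAt L u 1 := by
  intro p s
  simpa [wpow] using h p s

/-- A star-free language is stable at every word. -/
theorem starFree_stable : ∀ (E : GRE α), E.sh = 0 → ∀ u, ∃ n, StableAt E.lang u n
  | .zero, _, u => ⟨0, stableAt_zero u⟩
  | .one, _, u => ⟨2, stableAt_short u (fun w hw => by
      rw [GRE.lang, Language.mem_one] at hw
      simp [hw])⟩
  | .letter a, _, u => ⟨2, stableAt_short u (fun w hw => by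
      have hw' : w = [a] := hw
      simp [hw'])⟩
  | .plus P Q, hE, u => by
    simp only [GRE.sh, Nat.max_eq_zero_iff] at hE
    obtain ⟨n, hn⟩ := starFree_stable P hE.1 u
    obtain ⟨m, hm⟩ := starFree_stable Q hE.2 u
    refine ⟨max n m, fun p s => ?_⟩
    simp only [GRE.lang, Language.mem_add]
    exact or_congr (hn.mono (le_max_left _ _) p s) (hm.mono (le_max_right _ _) p s)
  | .cat P Q, hE, u => by
    simp only [GRE.sh, Nat.max_eq_zero_iff] at hE
    obtain ⟨n, hn⟩ := starFree_stable P hE.1 u
    obtain ⟨m, hm⟩ := starFree_stable Q hE.2 u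
    exact ⟨_, stableAt_cat hn hm⟩
  | .neg P, hE, u => by
    obtain ⟨n, hn⟩ := starFree_stable P hE u
    exact ⟨n, fun p s => not_congr (hn p s)⟩
  | .star P, hE, _ => by simp [GRE.sh] at hE

/-- Height at most one gives stability outside the kernels of finitely many stars of star-free
languages. -/
theorem height_one_stable : ∀ (E : GRE α), E.sh ≤ 1 → ∃ Ks : List (GRE α),
    (∀ K ∈ Ks, K.sh = 0) ∧ ∀ u, (∀ K ∈ Ks, SynEq (KStar.kstar K.lang) u (u ++ u)) →
      ∃ n, StableAt E.lang u n
  | .zero, _ => ⟨[], by simp, fun u _ => starFree_stable GRE.zero rfl u⟩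
  | .one, _ => ⟨[], by simp, fun u _ => starFree_stable GRE.one rfl u⟩
  | .letter a, _ => ⟨[], by simp, fun u _ => starFree_stable (GRE.letter a) rfl u⟩
  | .plus P Q, hE => by
    simp only [GRE.sh, Nat.max_le] at hE
    obtain ⟨K1, h1, g1⟩ := height_one_stable P hE.1
    obtain ⟨K2, h2, g2⟩ := height_one_stable Q hE.2
    refine ⟨K1 ++ K2, fun K hK => (List.mem_append.1 hK).elim (h1 K) (h2 K), fun u hu => ?_⟩
    obtain ⟨n, hn⟩ := g1 u (fun K hK => hu K (List.mem_append_left _ hK))
    obtain ⟨m, hm⟩ := g2 u (fun K hK => hu K (List.mem_append_right _ hK))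
    refine ⟨max n m, fun p s => ?_⟩
    simp only [GRE.lang, Language.mem_add]
    exact or_congr (hn.mono (le_max_left _ _) p s) (hm.mono (le_max_right _ _) p s)
  | .cat P Q, hE => by
    simp only [GRE.sh, Nat.max_le] at hE
    obtain ⟨K1, h1, g1⟩ := height_one_stable P hE.1
    obtain ⟨K2, h2, g2⟩ := height_one_stable Q hE.2
    refine ⟨K1 ++ K2, fun K hK => (List.mem_append.1 hK).elim (h1 K) (h2 K), fun u hu => ?_⟩
    obtain ⟨n, hn⟩ := g1 u (fun K hK => hu K (List.mem_append_left _ hK))
    obtain ⟨m, hm⟩ := g2 u (fun K hK => hu K (List.mem_append_right _ hK))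
    exact ⟨_, stableAt_cat hn hm⟩
  | .neg P, hE => by
    obtain ⟨K1, h1, g1⟩ := height_one_stable P hE
    refine ⟨K1, h1, fun u hu => ?_⟩
    obtain ⟨n, hn⟩ := g1 u hu
    exact ⟨n, fun p s => not_congr (hn p s)⟩
  | .star P, hE => by
    refine ⟨[P], fun K hK => ?_, fun u hu => ⟨1, (hu P (List.mem_singleton_self _)).kstar_stable⟩⟩
    simp only [List.mem_singleton] at hK
    subst hK
    simp only [GRE.sh] at hE
    omega

end Vale.Agent.P329
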