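import Vale.Agent.P329.LowHeight

/-! Automata whose moves either increase a rank or return to a base state (P329). -/

namespace Vale.Agent.P329.Restart

open LowHeight

variable {α Q : Type*} (st : Q → α → Q) (o : Q)

/-- No nonempty prefix reaches `o`. -/
def avoid : Q → List α → Prop
  | _, [] => True
  | x, a :: w => st x a ≠ o ∧ avoid (st x a) w

/-- Paths from `x` to `y` avoiding `o`. -/
def path (x y : Q) : Language α := {w | avoid st o x w ∧ w.foldl st x = y}

theorem nil_mem_path {x y : Q} : [] ∈ path st o x y ↔ x = y := by
  change avoid st o x [] ∧ x = y ↔ _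
  simp [avoid]

theorem cons_mem_path {x y : Q} {a : α} {w : List α} :
    a :: w ∈ path st o x y ↔ st x a ≠ o ∧ w ∈ path st o (st x a) y := by
  change avoid st o x (a :: w) ∧ _ ↔ _ ∧ (avoid st o _ w ∧ _)
  simp [avoid, and_assoc]

variable [Finite α]

theorem sf_path_step (x y : Q)
    (ih : ∀ a, st x a ≠ o → st x a ≠ x → SF (path st o (st x a) y)) :
    SF (path st o x y) := by
  classical
  let Fx : Set α := {a | st x a = x ∧ st x a ≠ o}
  have hM : SF (⨆ a : {a : α // st x a ≠ o ∧ st x a ≠ x},
      only Fx * ({[a.1]} : Language α) * path st o (st x a.1) y) :=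
    sf_iUnion fun a => ((sf_only Fx).mul (sf_letter a.1)).mul (ih a.1 a.2.1 a.2.2)
  have hS : SF (if x = y then only Fx else 0) := by
    split_ifs
    · exact sf_only Fx
    · exact sf_zero
  convert hS.add hM using 1
  ext w
  rw [Language.mem_add, Language.mem_iSup]
  constructor
  · intro hw
    induction w with
    | nil =>
      rw [nil_mem_path] at hw
      left
      rw [if_pos hw]
      intro a ha
      simp at ha
    | cons a w IH =>
      rw [cons_mem_path] at hw
      by_cases hax : st x a = x
      · have haF : a ∈ Fx := ⟨hax, hw.1⟩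
        rcases IH (by rw [hax] at hw; exact hw.2) with h | ⟨b, h⟩
        · left
          split_ifs at h ⊢ with hxy
          · intro c hc
            rcases List.mem_cons.1 hc with rfl | hc
            · exact haF
            · exact h c hc
          · exact absurd h (Language.notMem_zero _)
        · right
          refine ⟨b, ?_⟩
          obtain ⟨p, ⟨u, hu, l, hl, rfl⟩, v, hv, rfl⟩ := Language.mem_mul.1 h
          refine Language.mem_mul.2 ⟨(a :: u) ++ l, Language.mem_mul.2 ⟨a :: u, ?_, l, hl, rfl⟩,
            v, hv, by simp⟩
          intro c hc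
          rcases List.mem_cons.1 hc with rfl | hc
          · exact haF
          · exact hu c hc
      · right
        refine ⟨⟨a, hw.1, hax⟩, ?_⟩
        refine Language.mem_mul.2 ⟨[a], Language.mem_mul.2 ⟨[], ?_, [a], rfl, rfl⟩, w, hw.2, rfl⟩
        intro c hc
        simp at hc
  · have pre : ∀ u : List α, (∀ c ∈ u, c ∈ Fx) → ∀ v, v ∈ path st o x y →
        u ++ v ∈ path st o x y := by
      intro u
      induction u with
      | nil => intro _ v hv; simpa using hv
      | cons c u IH =>
        intro hu v hv
        have hc := hu c (by simp)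
        rw [List.cons_append, cons_mem_path]
        refine ⟨hc.2, ?_⟩
        rw [hc.1]
        exact IH (fun d hd => hu d (by simp [hd])) v hv
    rintro (h | ⟨b, h⟩)
    · split_ifs at h with hxy
      · have := pre w h [] (by rw [nil_mem_path]; exact hxy)
        simpa using this
      · exact absurd h (Language.notMem_zero _)
    · obtain ⟨p, ⟨u, hu, l, hl, rfl⟩, v, hv, rfl⟩ := Language.mem_mul.1 h
      obtain rfl : l = [b.1] := hl
      have := pre u hu (b.1 :: v) (by rw [cons_mem_path]; exact ⟨b.2.1, hv⟩)
      simpa using this

variable [Finite Q] (rk : Q → ℕ) (hmono : ∀ x a, st x a = o ∨ st x a = x ∨ rk x < rk (st x a))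

include hmono in
theorem sf_path (x y : Q) : SF (path st o x y) := by
  have := Fintype.ofFinite Q
  have key : ∀ k : ℕ, ∀ x, Finset.univ.sup rk ≤ rk x + k → SF (path st o x y) := by
    intro k
    induction k with
    | zero =>
      intro x hx
      refine sf_path_step st o x y fun a h1 h2 => ?_
      have := Finset.le_sup (f := rk) (Finset.mem_univ (st x a))
      rcases hmono x a with h | h | h <;> first | contradiction | omega
    | succ k IH =>
      intro x hx
      refine sf_path_step st o x y fun a h1 h2 => ?_
      rcases hmono x a with h | h | h <;> first | contradiction | exact IH _ (by omega)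
  exact key _ x (Nat.le_add_left _ _)

/-- Words on which `x` first arrives at `o` with their last letter. -/
def arrive (x : Q) : Language α :=
  ⨆ p : {p : Q × α // st p.1 p.2 = o}, path st o x p.1.1 * ({[p.1.2]} : Language α)

theorem arrive_foldl {x : Q} {w : List α} (h : w ∈ arrive st o x) : w.foldl st x = o := by
  obtain ⟨⟨⟨z, a⟩, hza⟩, h⟩ := Language.mem_iSup.1 h
  obtain ⟨u, hu, l, hl, rfl⟩ := Language.mem_mul.1 h
  obtain rfl : l = [a] := hl
  rw [List.foldl_append, hu.2]
  simpa using hza

theorem cons_mem_arrive {x : Q} {a : α} {w : List α} (ha : st x a ≠ o)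
    (h : w ∈ arrive st o (st x a)) : a :: w ∈ arrive st o x := by
  obtain ⟨p, h⟩ := Language.mem_iSup.1 h
  obtain ⟨u, hu, l, hl, rfl⟩ := Language.mem_mul.1 h
  refine Language.mem_iSup.2 ⟨p, Language.mem_mul.2 ⟨a :: u, ?_, l, hl, rfl⟩⟩
  rw [cons_mem_path]
  exact ⟨ha, hu⟩

theorem reach_eq (x y : Q) :
    ({w | w.foldl st x = y} : Language α) = path st o x y +
      arrive st o x * KStar.kstar (arrive st o o) * path st o o y := by
  apply Set.ext
  intro w
  change w.foldl st x = y ↔ w ∈ path st o x y + _
  rw [Language.mem_add]
  constructor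
  · intro hw
    induction w generalizing x with
    | nil => left; rw [nil_mem_path]; exact hw
    | cons a w IH =>
      rw [List.foldl_cons] at hw
      by_cases ha : st x a = o
      · right
        have hA : [a] ∈ arrive st o x := by
          refine Language.mem_iSup.2 ⟨⟨(x, a), ha⟩, ?_⟩
          exact Language.mem_mul.2 ⟨[], (nil_mem_path st o).2 rfl, [a], rfl, rfl⟩
        rw [ha] at hw
        rcases IH o hw with h | h
        · exact Language.mem_mul.2 ⟨[a] ++ [], Language.mem_mul.2
            ⟨[a], hA, [], Language.nil_mem_kstar _, rfl⟩, w, h, by simp⟩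
        · obtain ⟨p, ⟨f, hf, k, hk, rfl⟩, s, hs, rfl⟩ := Language.mem_mul.1 h
          obtain ⟨L, rfl, hL⟩ := Language.mem_kstar.1 hk
          refine Language.mem_mul.2 ⟨[a] ++ (f ++ L.flatten), Language.mem_mul.2
            ⟨[a], hA, f ++ L.flatten, ?_, rfl⟩, s, hs, by simp⟩
          exact Language.mem_kstar.2 ⟨f :: L, by simp, fun z hz => by
            rcases List.mem_cons.1 hz with rfl | hz
            · exact hf
            · exact hL z hz⟩
      · rcases IH (st x a) hw with h | h
        · left; rw [cons_mem_path]; exact ⟨ha, h⟩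
        · right
          obtain ⟨p, ⟨f, hf, k, hk, rfl⟩, s, hs, rfl⟩ := Language.mem_mul.1 h
          exact Language.mem_mul.2 ⟨(a :: f) ++ k, Language.mem_mul.2
            ⟨a :: f, cons_mem_arrive st o ha hf, k, hk, rfl⟩, s, hs, by simp⟩
  · rintro (h | h)
    · exact h.2
    · obtain ⟨p, ⟨f, hf, k, hk, rfl⟩, s, hs, rfl⟩ := Language.mem_mul.1 h
      obtain ⟨L, rfl, hL⟩ := Language.mem_kstar.1 hk
      have hloop : L.flatten.foldl st o = o := by
        clear hk h
        induction L with
        | nil => rfl
        | cons l L IH =>
          rw [List.flatten_cons, List.foldl_append, arrive_foldl st o (hL l (by simp))]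
          exact IH fun z hz => hL z (by simp [hz])
      rw [List.foldl_append, List.foldl_append, arrive_foldl st o hf, hloop]
      exact hs.2

include hmono in
theorem h1_reach (x y : Q) : H1 (fib (fun w => w.foldl st x) {y}) := by
  have hA : ∀ z, SF (arrive st o z) := fun z =>
    sf_iUnion fun p => (sf_path st o rk hmono z p.1.1).mul (sf_letter p.1.2)
  rw [show fib (fun w => w.foldl st x) {y} = _ from reach_eq st o x y]
  exact (sf_path st o rk hmono x y).h1.add
    (((hA x).h1.mul (hA o).star).mul (sf_path st o rk hmono o y).h1)

include hmono in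
theorem meas_trans : Meas fun (w : List α) (x : Q) => w.foldl st x :=
  meas_pi fun x => meas_of_point fun y => h1_reach st o rk hmono x y

end Vale.Agent.P329.Restart
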