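import Vale.Agent.P329.Restart

/-! Counts of scattered subwords of length at most three modulo `m` have height at most one (P329). -/

namespace Vale.Agent.P329.Subwords

open LowHeight

variable {α : Type*}

section Psum

variable {R S : Type*} [AddCommMonoid R] [AddCommMonoid S]

/-- Sum of `F` over the positions of a word that follows the prefix `p`. -/
def psumFrom (F : List α → α → R) : List α → List α → R
  | _, [] => 0
  | p, a :: w => F p a + psumFrom F (p ++ [a]) w

/-- Sum over the positions of a word of a function of prefix and letter. -/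
def psum (F : List α → α → R) (w : List α) : R := psumFrom F [] w

theorem psumFrom_snoc (F : List α → α → R) (w : List α) (a : α) : ∀ p,
    psumFrom F p (w ++ [a]) = psumFrom F p w + F (p ++ w) a := by
  induction w with
  | nil => intro p; simp [psumFrom]
  | cons b w ih => intro p; simp [psumFrom, ih, add_assoc]

@[simp] theorem psum_nil (F : List α → α → R) : psum F [] = 0 := rfl

@[simp] theorem psum_snoc (F : List α → α → R) (w : List α) (a : α) :
    psum F (w ++ [a]) = psum F w + F w a := by
  simp [psum, psumFrom_snoc]

theorem psum_add (F G : List α → α → R) (w : List α) :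
    psum (fun p t => F p t + G p t) w = psum F w + psum G w := by
  induction w using List.reverseRecOn with
  | nil => simp
  | append_singleton w a ih => simp [ih]; abel

theorem psum_map (φ : R →+ S) (F : List α → α → R) (w : List α) :
    φ (psum F w) = psum (fun p t => φ (F p t)) w := by
  induction w using List.reverseRecOn with
  | nil => simp
  | append_singleton w a ih => simp [ih]

theorem psum_finset {ι : Type*} (T : Finset ι) (F : ι → List α → α → R) (w : List α) :
    psum (fun p t => ∑ i ∈ T, F i p t) w = ∑ i ∈ T, psum (F i) w := by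
  induction w using List.reverseRecOn with
  | nil => simp
  | append_singleton w a ih => simp [ih, Finset.sum_add_distrib]

theorem psum_zero (w : List α) : psum (fun _ _ => (0 : R)) w = 0 := by
  induction w using List.reverseRecOn with
  | nil => simp
  | append_singleton w a ih => simp [ih]

theorem psum_list {ι : Type*} (T : List ι) (F : ι → List α → α → R) (w : List α) :
    psum (fun p t => (T.map fun i => F i p t).sum) w = (T.map fun i => psum (F i) w).sum := by
  induction T with
  | nil => simpa using psum_zero w
  | cons i T ih => simp [psum_add, ih]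

end Psum

variable [DecidableEq α]

/-- Sum of `G` of the prefix over the positions of letters in `B`. -/
def atS (B : Finset α) (G : List α → ℕ) : List α → ℕ := psum fun p t => if t ∈ B then G p else 0

/-- Number of positions of letters in `A`. -/
def nA (A : Finset α) : List α → ℕ := atS A fun _ => 1

/-- Occurrences of a letter. -/
def n1 (a : α) : List α → ℕ := nA {a}

/-- Scattered occurrences of `yz`. -/
def n2 (y z : α) : List α → ℕ := atS {z} (n1 y)

/-- Scattered occurrences of `yyz`. -/
def bb (y z : α) : List α → ℕ := atS {z} fun p => (n1 y p).choose 2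

/-- Products of two letter counts summed before the occurrences of `z`. -/
def q2 (x y z : α) : List α → ℕ := atS {z} fun p => n1 x p * n1 y p

/-- Scattered occurrences of `yzx`. -/
def n3 (y z x : α) : List α → ℕ := atS {x} (n2 y z)

@[simp] theorem atS_nil (B : Finset α) (G : List α → ℕ) : atS B G [] = 0 := rfl

@[simp] theorem atS_snoc (B : Finset α) (G : List α → ℕ) (w : List α) (a : α) :
    atS B G (w ++ [a]) = atS B G w + if a ∈ B then G w else 0 := psum_snoc _ w a

theorem shuffle {y z : α} (h : y ≠ z) (w : List α) :
    n2 y z w + n2 z y w = n1 y w * n1 z w := by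
  induction w using List.reverseRecOn with
  | nil => simp [n1, n2, nA]
  | append_singleton w a ih =>
    simp only [n1, n2, nA, atS_snoc, Finset.mem_singleton] at ih ⊢
    by_cases hy : a = y
    · subst hy; simp only [↓reduceIte, if_neg h]; linear_combination ih
    · by_cases hz : a = z
      · subst hz; simp only [↓reduceIte, if_neg (Ne.symm h)]; linear_combination ih
      · simp only [if_neg hy, if_neg hz]; linear_combination ih

theorem product (x y z : α) (hyz : y ≠ z) (w : List α) :
    n1 x w * n2 y z w = n3 y z x w + q2 x y z w + if x = z then n2 y z w else 0 := by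
  induction w using List.reverseRecOn with
  | nil => simp [n1, n2, n3, q2, nA]
  | append_singleton w a ih =>
    simp only [n1, n2, n3, q2, nA, atS_snoc, Finset.mem_singleton] at ih ⊢
    by_cases hxz : x = z
    · subst hxz
      by_cases hx : a = x
      · subst hx; simp only [↓reduceIte] at ih ⊢; linear_combination ih
      · simp only [if_neg hx, ↓reduceIte] at ih ⊢; linear_combination ih
    · simp only [if_neg hxz] at ih ⊢
      by_cases hx : a = x
      · subst hx; simp only [↓reduceIte, if_neg hxz]; linear_combination ih
      · by_cases hz : a = z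
        · subst hz; simp only [↓reduceIte, if_neg hx]; linear_combination ih
        · simp only [if_neg hx, if_neg hz]; linear_combination ih

theorem choose_succ_two (k : ℕ) : (k + 1).choose 2 = k.choose 2 + k := by
  rw [Nat.choose_succ_succ', Nat.choose_one_right, add_comm]

theorem two_mul_choose_two (k : ℕ) : 2 * k.choose 2 + k = k * k := by
  induction k with
  | zero => simp
  | succ k ih => rw [choose_succ_two]; linear_combination ih

theorem choose_two_add (a b : ℕ) : (a + b).choose 2 = a.choose 2 + b.choose 2 + a * b := by
  induction b with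
  | zero => simp
  | succ b ih => rw [← add_assoc, choose_succ_two, choose_succ_two, ih]; ring

theorem yzz {y z : α} (h : y ≠ z) (w : List α) :
    n3 y z z w + n1 z w * n2 z y w =
      (n1 z w).choose 2 * n1 y w + n2 z y w + bb z y w := by
  induction w using List.reverseRecOn with
  | nil => simp [n1, n2, n3, bb, nA]
  | append_singleton w a ih =>
    have hs := shuffle h w
    have h2 := two_mul_choose_two (n1 z w)
    simp only [n1, n2, n3, bb, nA, atS_snoc, Finset.mem_singleton] at ih hs h2 ⊢
    by_cases hy : a = y
    · subst hy
      simp only [↓reduceIte, if_neg h, add_zero]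
      linear_combination ih - h2
    · by_cases hz : a = z
      · subst hz
        simp only [↓reduceIte, if_neg (Ne.symm h), choose_succ_two, add_zero]
        linear_combination ih + hs
      · simp only [if_neg hy, if_neg hz, add_zero]
        linear_combination ih

theorem q2_self (y z : α) (w : List α) : q2 y y z w = 2 * bb y z w + n2 y z w := by
  induction w using List.reverseRecOn with
  | nil => simp [q2, bb, n2]
  | append_singleton w a ih =>
    simp only [q2, bb, n2, atS_snoc] at ih ⊢
    split_ifs
    · linear_combination ih - two_mul_choose_two (n1 y w)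
    · linear_combination ih

theorem nA_pair {x y : α} (h : x ≠ y) (w : List α) : nA {x, y} w = n1 x w + n1 y w := by
  induction w using List.reverseRecOn with
  | nil => simp [n1, nA]
  | append_singleton w a ih =>
    simp only [n1, nA, atS_snoc, Finset.mem_insert, Finset.mem_singleton] at ih ⊢
    by_cases hx : a = x
    · subst hx; simp [h] at ih ⊢; linear_combination ih
    · by_cases hy : a = y
      · subst hy
        simp only [hx, false_or, ↓reduceIte]
        linear_combination ih
      · simp only [hx, hy, false_or, ↓reduceIte]
        linear_combination ih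

theorem q2_pair {x y : α} (h : x ≠ y) (z : α) (w : List α) :
    atS {z} (fun p => (nA {x, y} p).choose 2) w = bb x z w + bb y z w + q2 x y z w := by
  induction w using List.reverseRecOn with
  | nil => simp [q2, bb]
  | append_singleton w a ih =>
    simp only [q2, bb, atS_snoc] at ih ⊢
    split_ifs
    · rw [nA_pair h, choose_two_add]; linear_combination ih
    · linear_combination ih

theorem choose_two_periodic (m k : ℕ) :
    ((k.choose 2 : ℕ) : ZMod m) = (((k % (2 * m)).choose 2 : ℕ) : ZMod m) := by
  have h : ∀ q r : ℕ, (((r + 2 * m * q).choose 2 : ℕ) : ZMod m) = ((r.choose 2 : ℕ) : ZMod m) := by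
    intro q r
    have hq : (2 * m * q).choose 2 = m * (q * (2 * m * q - 1)) := by
      rw [Nat.choose_two_right, show 2 * m * q * (2 * m * q - 1) = 2 * (m * (q * (2 * m * q - 1)))
        by ring, Nat.mul_div_cancel_left _ two_pos]
    rw [choose_two_add, hq, show r * (2 * m * q) = m * (r * 2 * q) by ring]
    simp
  conv_lhs => rw [← Nat.mod_add_div k (2 * m)]
  exact h _ _

section Machine

variable [Finite α] (A B : Finset α)

/-- The counting automaton on `ZMod (M * m)`. -/
def cst (M m : ℕ) (x : ZMod (M * m)) (t : α) : ZMod (M * m) :=
  if t ∈ A then x + 1 else if t ∈ B ∧ x.val % M = 0 then x + (M : ℕ) else x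

theorem cst_mono (M m : ℕ) [NeZero M] [NeZero m] (x : ZMod (M * m)) (t : α) :
    cst A B M m x t = 0 ∨ cst A B M m x t = x ∨ x.val < (cst A B M m x t).val := by
  have key : ∀ k : ℕ, 0 < k → x.val + k ≤ M * m →
      x + (k : ZMod (M * m)) = 0 ∨ x.val < (x + (k : ZMod (M * m))).val := by
    intro k hk hle
    have hx : x + (k : ZMod (M * m)) = ((x.val + k : ℕ) : ZMod (M * m)) := by
      rw [Nat.cast_add, ZMod.natCast_zmod_val]
    rcases hle.eq_or_lt with h | h
    · left; rw [hx, h, ZMod.natCast_self]
    · right; rw [hx, ZMod.val_natCast, Nat.mod_eq_of_lt h]; omega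
  unfold cst
  split_ifs with h1 h2
  · have := x.val_lt
    rcases key 1 one_pos (by omega) with h | h
    · left; simpa using h
    · right; right; simpa using h
  · have hd : x.val + M ≤ M * m := by
      obtain ⟨j, hj⟩ := Nat.dvd_of_mod_eq_zero h2.2
      have hlt : M * j < M * m := hj ▸ x.val_lt
      have : j < m := Nat.lt_of_mul_lt_mul_left hlt
      rw [hj]
      calc M * j + M = M * (j + 1) := by ring
        _ ≤ M * m := Nat.mul_le_mul_left M this
    rcases key M (Nat.pos_of_neZero M) hd with h | h
    · exact Or.inl h
    · exact Or.inr (Or.inr h)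
  · exact Or.inr (Or.inl rfl)

/-- Letters of `B` preceded by an `A`-count congruent to `-v` modulo `M`. -/
def cR (M v : ℕ) : List α → ℕ := atS B fun p => if (v + nA A p) % M = 0 then 1 else 0

theorem cst_foldl (M m : ℕ) [NeZero M] [NeZero m] (hd : Disjoint A B) (x : ZMod (M * m))
    (w : List α) :
    w.foldl (cst A B M m) x = x + ((nA A w + M * cR A B M x.val w : ℕ) : ZMod (M * m)) := by
  induction w using List.reverseRecOn with
  | nil => simp [nA, cR]
  | append_singleton w t ih =>
    rw [List.foldl_append, ih, List.foldl_cons, List.foldl_nil]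
    have hv : (x + ((nA A w + M * cR A B M x.val w : ℕ) : ZMod (M * m))).val % M =
        (x.val + nA A w) % M := by
      rw [ZMod.val_add, ZMod.val_natCast, Nat.mod_mul_right_mod, Nat.add_mod,
        Nat.mod_mul_right_mod, ← Nat.add_mod, ← add_assoc, Nat.add_mul_mod_self_left]
    unfold cst
    rw [hv]
    simp only [cR, nA, atS_snoc] at hv ⊢
    by_cases hA : t ∈ A
    · have hB : t ∉ B := Finset.disjoint_left.1 hd hA
      simp [hA, hB]
      ring
    · by_cases hB : t ∈ B
      · simp only [hA, hB, true_and, if_false, if_true, add_zero]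
        by_cases h : (x.val + atS A (fun _ => 1) w) % M = 0
        · simp only [h, if_true]; push_cast; ring
        · simp only [h, if_false]; push_cast; ring
      · simp [hA, hB]

theorem meas_nA (n : ℕ) [NeZero n] : Meas fun w => (nA A w : ZMod n) := by
  haveI : NeZero (1 * n) := ⟨by simpa using NeZero.ne n⟩
  have h := (Restart.meas_trans (cst A ∅ 1 n) 0 ZMod.val (cst_mono A ∅ 1 n)).comp
    fun g => (((g 0).val : ℕ) : ZMod n)
  convert h using 2 with w
  rw [cst_foldl A ∅ 1 n (Finset.disjoint_empty_right A) 0 w]
  have h0 : cR A ∅ 1 (0 : ZMod (1 * n)).val w = 0 := by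
    induction w using List.reverseRecOn with
    | nil => rfl
    | append_singleton w t ih => simpa [cR] using ih
  rw [h0, mul_zero, add_zero, zero_add, ZMod.val_natCast, one_mul, ZMod.natCast_mod]

theorem meas_cR (M m : ℕ) [NeZero M] [NeZero m] (hd : Disjoint A B) (v : ℕ) (hv : v < M * m) :
    Meas fun w => (cR A B M v w : ZMod m) := by
  have h := ((Restart.meas_trans (cst A B M m) 0 ZMod.val (cst_mono A B M m)).comp₂
    (meas_nA A (M * m)) fun g e => g (v : ZMod (M * m)) - (v : ZMod (M * m)) - e).comp
    fun r => ((r.val / M : ℕ) : ZMod m)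
  convert h using 2 with w
  rw [cst_foldl A B M m hd _ w, ZMod.val_natCast, Nat.mod_eq_of_lt hv]
  rw [show (v : ZMod (M * m)) + ((nA A w + M * cR A B M v w : ℕ) : ZMod (M * m)) -
    (v : ZMod (M * m)) - (nA A w : ZMod (M * m)) = ((M * cR A B M v w : ℕ) : ZMod (M * m)) by
      push_cast; ring]
  rw [ZMod.val_natCast, Nat.mul_mod_mul_left, Nat.mul_div_cancel_left _ (Nat.pos_of_neZero M),
    ZMod.natCast_mod]

theorem meas_sum {ι R : Type*} [AddCommMonoid R] [Finite R] (T : Finset ι)
    {f : ι → List α → R} (h : ∀ i ∈ T, Meas (f i)) : Meas fun w => ∑ i ∈ T, f i w := by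
  classical
  induction T using Finset.induction_on with
  | empty => simpa using meas_const (α := α) (0 : R)
  | insert a T ha ih =>
    simp only [Finset.sum_insert ha]
    exact (h a (by simp)).comp₂ (ih fun i hi => h i (by simp [hi])) (· + ·)

theorem meas_atS (M m : ℕ) [NeZero M] [NeZero m] (hd : Disjoint A B) (g : ℕ → ℕ)
    (hg : ∀ k, ((g k : ℕ) : ZMod m) = ((g (k % M) : ℕ) : ZMod m)) :
    Meas fun w => (atS B (fun p => g (nA A p)) w : ZMod m) := by
  have hM := Nat.pos_of_neZero M
  have hsum := meas_sum (Finset.range M)
    (f := fun j w => (g j : ZMod m) * (cR A B M ((M - j) % M) w : ZMod m)) fun j _ =>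
      (meas_cR A B M m hd _ (lt_of_lt_of_le (Nat.mod_lt _ hM)
        (Nat.le_mul_of_pos_right M (Nat.pos_of_neZero m)))).comp fun c => (g j : ZMod m) * c
  convert hsum using 2 with w
  induction w using List.reverseRecOn with
  | nil => simp [cR]
  | append_singleton w t ih =>
    simp only [cR, atS_snoc, Nat.cast_add, mul_add, Finset.sum_add_distrib] at ih ⊢
    rw [ih]
    congr 1
    by_cases hB : t ∈ B
    · simp only [hB, if_true]
      have key : ∀ j ∈ Finset.range M,
          ((M - j) % M + nA A w) % M = 0 ↔ nA A w % M = j := by
        intro j hj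
        have hj' := Finset.mem_range.1 hj
        have hk := Nat.mod_lt (nA A w) hM
        rw [Nat.add_mod, Nat.mod_mod]
        rcases Nat.eq_zero_or_pos j with rfl | hj0
        · simp
        · rw [Nat.mod_eq_of_lt (by omega : M - j < M)]
          rcases lt_trichotomy (nA A w % M) j with h | h | h
          · rw [Nat.mod_eq_of_lt (by omega)]; omega
          · simp [h, show M - j + j = M by omega]
          · rw [Nat.mod_eq_sub_mod (by omega), Nat.mod_eq_of_lt (by omega)]; omega
      rw [hg, Finset.sum_eq_single (nA A w % M)]
      · rw [if_pos ((key _ (Finset.mem_range.2 (Nat.mod_lt _ hM))).2 rfl)]; simp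
      · intro j hj hne
        rw [if_neg fun h => hne ((key j hj).1 h).symm]; simp
      · intro h; exact absurd (Finset.mem_range.2 (Nat.mod_lt _ hM)) h
    · simp [hB]

end Machine

variable [Finite α] (m : ℕ) [NeZero m]

theorem meas_n1 (a : α) : Meas fun w => (n1 a w : ZMod m) := meas_nA {a} m

theorem meas_n2 {y z : α} (h : y ≠ z) : Meas fun w => (n2 y z w : ZMod m) :=
  meas_atS {y} {z} m m (by simpa using h) id fun k => by simp

theorem meas_choose {A B : Finset α} (hd : Disjoint A B) :
    Meas fun w => (atS B (fun p => (nA A p).choose 2) w : ZMod m) :=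
  meas_atS A B (2 * m) m hd (fun k => k.choose 2) (choose_two_periodic m)

theorem meas_bb {y z : α} (h : y ≠ z) : Meas fun w => (bb y z w : ZMod m) :=
  meas_choose m (by simpa using h)

theorem meas_q2 {x y z : α} (hx : x ≠ z) (hy : y ≠ z) : Meas fun w => (q2 x y z w : ZMod m) := by
  by_cases hxy : x = y
  · subst hxy
    convert (meas_bb m hx).comp₂ (meas_n2 m hx) (fun a b => 2 * a + b) using 2 with w
    rw [q2_self]; push_cast; ring
  · have hd : Disjoint ({x, y} : Finset α) {z} := by simp [hx.symm, hy.symm]
    convert ((meas_choose m hd).comp₂ (meas_bb m hx) (fun a b => a - b)).comp₂ (meas_bb m hy)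
      (fun a b => a - b) using 2 with w
    rw [q2_pair hxy]; push_cast; ring

theorem meas_n3 {y z : α} (h : y ≠ z) (x : α) : Meas fun w => (n3 y z x w : ZMod m) := by
  by_cases hxz : x = z
  · subst hxz
    have hC : Meas fun w => (((n1 x w).choose 2 : ℕ) : ZMod m) := by
      convert (meas_n1 (2 * m) x).comp (fun e => ((e.val.choose 2 : ℕ) : ZMod m)) using 2 with w
      rw [ZMod.val_natCast, ← choose_two_periodic]
    have h1 := (hC.comp₂ (meas_n1 m y) (· * ·)).comp₂ (meas_n2 m h.symm) (· + ·)
    have h2 := (meas_n1 m x).comp₂ (meas_n2 m h.symm) (· * ·)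
    convert (h1.comp₂ (meas_bb m h.symm) (· + ·)).comp₂ h2 (· - ·) using 2 with w
    rw [eq_sub_iff_add_eq]
    exact_mod_cast congrArg (Nat.cast (R := ZMod m)) (yzz h w)
  · convert ((meas_n1 m x).comp₂ (meas_n2 m h) (· * ·)).comp₂ (meas_q2 m hxz h) (· - ·) using 2
      with w
    rw [eq_sub_iff_add_eq]
    have hp := product x y z h w
    rw [if_neg hxz, add_zero] at hp
    exact_mod_cast congrArg (Nat.cast (R := ZMod m)) hp.symm

end Vale.Agent.P329.Subwords
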